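import Vale.Agent.P161.Final

universe u

/-- P161 below the Kesten-Stigum point: on the `d`-regular tree, `d ≥ 3`, the free zero-field
ferromagnetic Ising measure with `θ = tanh β` exists, is unique, and is a factor of IID whenever
`(d - 1) θ² < 1`, that is `θ < (d - 1)^(-1/2)`. -/
theorem Vale.Agent.Results.P161.FIID.result
    (V : Type u) (G : SimpleGraph V) (d : ℕ) (β : ℝ) (hd : 3 ≤ d) (hT : G.IsTree)
    (hdeg : ∀ v, (G.neighborSet v).ncard = d) (hβ : 0 ≤ β)
    (hKS : ((d : ℝ) - 1) * Real.tanh β ^ 2 < 1) :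
    (∃! μ : MeasureTheory.Measure (V → Bool), P161.IsFreeIsing G (Real.tanh β) μ) ∧
      ∀ μ : MeasureTheory.Measure (V → Bool), P161.IsFreeIsing G (Real.tanh β) μ →
        P161.IsFactorOfIID G μ :=
  P161.final G hT d hd hdeg β hβ hKS
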